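import Vale.Agent.P157.Dichotomy

/-!
For which potentials and densities the limit of the pressure of the Gaussian perceptron is the
annealed one: exactly when the first Gaussian moment of `exp f` vanishes, at small density, on the
Ising cube and on the sphere; the set of such densities is downward closed.
-/

namespace Vale.Agent.Results.P157.AnnealedDichotomy

open MeasureTheory ProbabilityTheory Filter Topology Vale.Agent.P157

theorem result : ∀ (f : ℝ → ℝ), Measurable f → ∀ B : ℝ, (∀ z, |f z| ≤ B) →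
    let a : ℝ := Real.log (∫ z, Real.exp (f z) ∂gaussianReal 0 1)
    let m : ℝ := ∫ z, z * Real.exp (f z) ∂gaussianReal 0 1
    (m = 0 → ∃ α₀ : ℝ, 0 < α₀ ∧ ∀ α ∈ Set.Ioc 0 α₀,
      Tendsto (pressure f α) atTop (𝓝 (α * a)) ∧
      Tendsto (spherePressure f α) atTop (𝓝 (α * a))) ∧
    (m ≠ 0 → ∀ α : ℝ, 0 < α → ∃ δ : ℝ, 0 < δ ∧
      ∀ᶠ N in atTop, pressure f α N ≤ α * a - δ ∧ spherePressure f α N ≤ α * a - δ) ∧
    (∀ α' α : ℝ, 0 < α' → α' ≤ α →
      (Tendsto (pressure f α) atTop (𝓝 (α * a)) →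
        Tendsto (pressure f α') atTop (𝓝 (α' * a))) ∧
      (Tendsto (spherePressure f α) atTop (𝓝 (α * a)) →
        Tendsto (spherePressure f α') atTop (𝓝 (α' * a)))) :=
  fun _ hf _ hB => annealed_dichotomy hf hB

end Vale.Agent.Results.P157.AnnealedDichotomy
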