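import Vale.Agent.P157.Parisi.Assembly

/-!
The limit of the pressure of the Gaussian perceptron with a bounded Borel log-potential, on the
Ising cube and on the sphere, for every pattern density.
-/

namespace Vale.Agent.Results.P157.ParisiFormula

open MeasureTheory Filter Topology Vale.Agent.P157 Vale.Agent.P157.Parisi

theorem result :
    (∀ (α : ℝ), 0 < α → ∀ (f : ℝ → ℝ), Measurable f → (∃ C, ∀ x, |f x| ≤ C) →
      Tendsto (fun N => pressure f α N) atTop (𝓝 (isingValue f α)) ∧
        Tendsto (fun N => spherePressure f α N) atTop (𝓝 (sphereValue f α)) ∧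
        BddBelow {v | ∃ K q, IsPath q ∧ q K < 1 ∧ v = isingEntropy K q + α * energy f K q} ∧
        BddBelow {v | ∃ K q, IsPath q ∧ q K < 1 ∧ v = sphereEntropy K q + α * energy f K q}) ∧
    ∀ (K : ℕ) (q : ℕ → ℝ), IsPath q → q K < 1 →
      BddAbove (Set.range fun h : {h : ℕ → ℝ // IsPath h} =>
        isingField K h.1 + (∑ l ∈ Finset.range (K + 1), h.1 l * q l) / (2 * ((K : ℝ) + 1))) := by
  refine ⟨fun α hα f hf hb => ?_, fun K _ hq h1 => isingEntropy_bddAbove K hq h1⟩
  obtain ⟨h1, h2⟩ := perceptron_formula f hf hb α hα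
  obtain ⟨C, hC⟩ := hb
  exact ⟨h1, h2, valueSet_bddBelow (fun K q => @isingEntropy_nonneg K q) hf hC hα.le,
    valueSet_bddBelow (fun K q => @sphereEntropy_nonneg K q) hf hC hα.le⟩

end Vale.Agent.Results.P157.ParisiFormula
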